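import Vale.Agent.P235.H12.StarP
import Vale.Agent.P235.H606.ADefs

/-!
P235 (helper12).  (ALLSTAR): every connected graph with large `c₁` contains a star of bad pieces.
-/

set_option autoImplicit false

namespace Vale.Agent.P235.H12

open SimpleGraph hiding Free
open Vale.Agent.P235 Vale.Agent.P235.H134 Vale.Agent.P235.H606

/-- (ALLSTAR), from the packing theorem for all graphs -/
theorem allStar_of (hAll : AllStmt) : AllStarStmt := by
  intro k C
  obtain ⟨K, hK⟩ := hAll (lev C (k + 1)) (lev_ge C (k + 1))
  refine ⟨K * ((k : ℝ) + 1) ^ 3 * Real.log ((k : ℝ) + 2), fun V _ G hG hbad => ?_⟩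
  by_cases hp : Packing G (lev C (k + 1)) k
  · obtain ⟨A, hA, hdis⟩ := hp
    exact star_of hG A hA hdis
  · exact absurd (hK k V G hG hp).1 hbad

end Vale.Agent.P235.H12
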