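import Vale.Agent.P235.H606.PDefs
import Vale.Agent.P235.H141.JDefs

/-!
# Stars of bad pieces, rooted excluded minors: statements (helper12)

A connected graph with large `c₁` contains a connected set `Z` and many disjoint connected sets with
large `c₁`, off `Z`, adjacent to `Z`.  Statements only: each block proves `theorem … : XStmt`.
-/

set_option autoImplicit false

namespace Vale.Agent.P235.H12

open SimpleGraph hiding Free
open Vale.Agent.P235 Vale.Agent.P235.H134 Vale.Agent.P235.H606 Vale.Agent.P235.H56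
open Vale.Agent.P235.H141
open Vale.Agent.P235.H341W (capG)

/-- `G[D]` is connected and `c₁(G[D]) > C` -/
def Bad {V : Type} (G : SimpleGraph V) (C : ℝ) (D : Set V) : Prop :=
  (G.induce D).Connected ∧ ¬ DistortionLE (G.induce D) C

/-- `k` disjoint bad sets around the connected set `Z` -/
structure Star {V : Type} (G : SimpleGraph V) (C : ℝ) (k : ℕ) (Z : Set V) (D : Fin k → Set V) :
    Prop where
  conn : (G.induce Z).Connected
  bad : ∀ i, Bad G C (D i)
  disj : ∀ i j, i ≠ j → Disjoint (D i) (D j)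
  off : ∀ i, Disjoint Z (D i)
  adj : ∀ i, ∃ z ∈ Z, ∃ x ∈ D i, G.Adj z x

/-- (GEO) delete a geodesic from `u` to `v` inside the bad set `S`: a bad set `D` next to it is
left -/
def GeoStmt : Prop :=
  ∀ (V : Type) [Finite V] (G : SimpleGraph V) (r : ℕ) (Q : ℝ) (S : Set V) (u v : V),
    Kr.NoK r G → 1 ≤ Q → u ∈ S → v ∈ S →
    Bad G (1600000000 * (Q + ((r : ℝ) + 2) ^ 3)) S →
    ∃ P D : Set V, P ⊆ S ∧ D ⊆ S ∧ Disjoint P D ∧ u ∈ P ∧ v ∈ P ∧ (G.induce P).Connected ∧
      Bad G Q D ∧ ∃ z ∈ P, ∃ x ∈ D, G.Adj z x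

/-- (STAR) from disjoint bad sets to a star, in graphs without a `K_r` minor -/
def StarStmt : Prop :=
  ∀ (r k : ℕ) (C : ℝ), ∃ K : ℝ, ∀ (V : Type) [Finite V] (G : SimpleGraph V), G.Connected →
    Kr.NoK r G → (∃ A : Fin (k + 1) → Set V, (∀ i, Bad G K (A i)) ∧
      ∀ i j, i ≠ j → Disjoint (A i) (A j)) →
    ∃ (Z : Set V) (D : Fin (k + 1) → Set V), Star G C (k + 1) Z D

/-- (ALLSTAR) all graphs: large `c₁` gives a star of `k + 1` bad sets -/
def AllStarStmt : Prop :=
  ∀ (k : ℕ) (C : ℝ), ∃ K : ℝ, ∀ (V : Type) [Finite V] (G : SimpleGraph V), G.Connected →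
    ¬ DistortionLE G K → ∃ (Z : Set V) (D : Fin (k + 1) → Set V), Star G C (k + 1) Z D

/-- `(H, a)` is a rooted minor of `(G, v)`: the branch set of `a` contains `v` -/
def RMinor {W V : Type} (H : SimpleGraph W) (a : W) (G : SimpleGraph V) (v : V) : Prop :=
  ∃ μ : W → Set V, (∀ a, (G.induce (μ a)).Connected) ∧
    (∀ a b, a ≠ b → Disjoint (μ a) (μ b)) ∧
    (∀ a b, H.Adj a b → ∃ x ∈ μ a, ∃ y ∈ μ b, G.Adj x y) ∧ v ∈ μ a

/-- connected graphs with large `c₁` have the rooted minor `(H, a)` at every vertex -/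
def RFree {W : Type} (H : SimpleGraph W) (a : W) : Prop :=
  ∃ Q : ℝ, ∀ (V : Type) [Finite V] (G : SimpleGraph V), G.Connected → ¬ DistortionLE G Q →
    ∀ v : V, RMinor H a G v

/-- disjoint copies of the `H i`, and a new vertex `none` joined to all the roots `a i` -/
def joinRoot {k : ℕ} (W : Fin k → Type) (H : ∀ i, SimpleGraph (W i)) (a : ∀ i, W i) :
    SimpleGraph (Option (Σ i, W i)) where
  Adj x y := (∃ (i : Fin k) (w w' : W i), x = some ⟨i, w⟩ ∧ y = some ⟨i, w'⟩ ∧ (H i).Adj w w') ∨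
    (x = none ∧ ∃ i, y = some ⟨i, a i⟩) ∨ (y = none ∧ ∃ i, x = some ⟨i, a i⟩)
  symm := ⟨by
    rintro x y (⟨i, w, w', rfl, rfl, h⟩ | ⟨rfl, i, rfl⟩ | ⟨rfl, i, rfl⟩)
    · exact Or.inl ⟨i, w', w, rfl, rfl, h.symm⟩
    · exact Or.inr (Or.inr ⟨rfl, i, rfl⟩)
    · exact Or.inr (Or.inl ⟨rfl, i, rfl⟩)⟩
  loopless := ⟨by
    rintro x (⟨i, w, w', h1, h2, h⟩ | ⟨h1, i, h2⟩ | ⟨h1, i, h2⟩)
    · rw [h1] at h2
      obtain rfl : w = w' := by
        have := Option.some.inj h2
        simpa using this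
      exact (H i).irrefl h
    · rw [h1] at h2
      exact absurd h2 (by simp)
    · rw [h1] at h2
      exact absurd h2 (by simp)⟩

/-- (JOIN) rooted excluded minors are closed under joining the roots to a new root -/
def JoinStmt : Prop :=
  ∀ (k : ℕ) (W : Fin k → Type) (H : ∀ i, SimpleGraph (W i)) (a : ∀ i, W i),
    (∀ i, RFree (H i) (a i)) → RFree (joinRoot W H a) none

/-- (RK33) -/
def RK33Stmt : Prop := ∀ a, RFree K33 a

/-- (RCAP) the grid with a root joined to its boundary -/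
def RCapStmt : Prop := ∀ r : ℕ, 1 ≤ r → RFree (capG (grid r) (bd r)) none

/-- the rooted graphs built from `K_{3,3}` and capped grids by joining roots to a new root -/
inductive Hung : (W : Type) → SimpleGraph W → W → Prop
  | k33 (a : Fin 3 ⊕ Fin 3) : Hung (Fin 3 ⊕ Fin 3) K33 a
  | cap (r : ℕ) : 1 ≤ r → Hung (Option (Fin r × Fin r)) (capG (grid r) (bd r)) none
  | join {k : ℕ} (W : Fin k → Type) (H : ∀ i, SimpleGraph (W i)) (a : ∀ i, W i) :
      (∀ i, Hung (W i) (H i) (a i)) → Hung (Option (Σ i, W i)) (joinRoot W H a) none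

/-- (HUNG) -/
def HungStmt : Prop :=
  ∀ (W : Type) [Finite W] (H : SimpleGraph W),
    (∀ c : H.ConnectedComponent, ∃ (X : Type) (T : SimpleGraph X) (a : X), Hung X T a ∧
      IsMinor (H.induce c.supp) T) →
    ∃ C : ℝ, Free H C

end Vale.Agent.P235.H12
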