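import Vale.Agent.P235.H12.Union
import Vale.Agent.P235.H56.Bound2

/-!
P235 (helper12).  The conjecture for the connected graphs without a minor `H`, for every `H` all of
whose components are minors of a `K_{3,3}` glued to a planar graph at a vertex.
-/

set_option autoImplicit false

namespace Vale.Agent.P235.H12

open SimpleGraph hiding Free
open Vale.Agent.P235 Vale.Agent.P235.H134 Vale.Agent.P235.H606 Vale.Agent.P235.H56

/-- `H` all of whose components are minors of some `jj r` -/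
theorem free_jj {W : Type} [Finite W] (H : SimpleGraph W)
    (h : ∀ a, ∃ r, 1 ≤ r ∧ IsMinor (H.induce {b | H.Reachable a b}) (H578.jj r)) :
    ∃ C : ℝ, Free H C := by
  refine components H fun a => ?_
  obtain ⟨r, hr, hm⟩ := h a
  obtain ⟨K, -, hK⟩ := jj_free r hr
  exact ⟨K, fun V _ G hc hno => (hK V G hc fun hj => hno (minor_trans hm hj)).2⟩

/-- Theorem U, the first graph may be empty -/
theorem union_free {W₁ W₂ : Type} [Finite W₁] [Finite W₂] (H₁ : SimpleGraph W₁)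
    (H₂ : SimpleGraph W₂) {C₁ C₂ : ℝ} (h1 : 1 ≤ C₁) (h2 : 1 ≤ C₂) (hF₁ : Free H₁ C₁)
    (hF₂ : Free H₂ C₂) :
    Free (H₁ ⊕g H₂) (10 ^ 14 * ((Nat.card W₁ + Nat.card W₂ : ℕ) + 2 : ℝ) ^ 6 * (C₁ + C₂)) := by
  rcases isEmpty_or_nonempty W₁ with hW | hW
  · refine free_mono (C := C₂) ?_ fun V _ G hc hno => hF₂ V G hc fun hm => hno ?_
    · have h3 : (1 : ℝ) ≤ ((Nat.card W₁ + Nat.card W₂ : ℕ) + 2 : ℝ) ^ 6 :=
        one_le_pow₀ (by
          have : (0 : ℝ) ≤ ((Nat.card W₁ + Nat.card W₂ : ℕ) : ℝ) := Nat.cast_nonneg _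
          linarith)
      nlinarith [mul_nonneg (sub_nonneg.2 h3) (by linarith : (0 : ℝ) ≤ C₁ + C₂)]
    · obtain ⟨μ, a1, a2, a3⟩ := hm
      refine ⟨Sum.elim (fun a => (hW.false a).elim) μ, ?_, ?_, ?_⟩
      · rintro (a | a)
        · exact (hW.false a).elim
        · exact a1 a
      · rintro (a | a) (b | b) hab
        · exact (hW.false a).elim
        · exact (hW.false a).elim
        · exact (hW.false b).elim
        · exact a2 a b fun h => hab (by rw [h])
      · rintro (a | a) (b | b) hab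
        · exact (hW.false a).elim
        · exact (hW.false a).elim
        · exact (hW.false b).elim
        · exact a3 a b hab
  · exact unionStmt W₁ W₂ H₁ H₂ C₁ C₂ h1 h2 hF₁ hF₂

/-! ### barbells -/

/-- two graphs joined by an edge from `a` to `b` -/
def bridge {W₁ W₂ : Type} (H₁ : SimpleGraph W₁) (H₂ : SimpleGraph W₂) (a : W₁) (b : W₂) :
    SimpleGraph (W₁ ⊕ W₂) :=
  (H₁ ⊕g H₂) ⊔ SimpleGraph.edge (Sum.inl a) (Sum.inr b)

theorem link {W₁ W₂ V : Type} [Nonempty W₁] [Nonempty W₂] {H₁ : SimpleGraph W₁}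
    {H₂ : SimpleGraph W₂} {G : SimpleGraph V} (hG : G.Connected) (hm : IsMinor (H₁ ⊕g H₂) G) :
    ∃ x y, IsMinor (bridge H₁ H₂ x y) G := by
  classical
  obtain ⟨μ, h1, h2, h3⟩ := hm
  have hne : ∀ a, (μ a).Nonempty := fun a => by
    obtain ⟨⟨v, hv⟩⟩ := (h1 a).nonempty
    exact ⟨v, hv⟩
  obtain ⟨A, hA⟩ : ∃ A : Set V, A = ⋃ a, μ (Sum.inl a) := ⟨_, rfl⟩
  obtain ⟨B, hB⟩ : ∃ B : Set V, B = ⋃ o, μ (Sum.inr o) := ⟨_, rfl⟩
  have hsA : ∀ a, μ (Sum.inl a) ⊆ A := fun a => by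
    rw [hA]; exact Set.subset_iUnion (fun a => μ (Sum.inl a)) a
  have hsB : ∀ a, μ (Sum.inr a) ⊆ B := fun a => by
    rw [hB]; exact Set.subset_iUnion (fun a => μ (Sum.inr a)) a
  have hAB : Disjoint A B := by
    rw [Set.disjoint_left]
    intro x hx hx'
    rw [hA] at hx
    rw [hB] at hx'
    obtain ⟨a, ha⟩ := Set.mem_iUnion.1 hx
    obtain ⟨o, ho⟩ := Set.mem_iUnion.1 hx'
    exact Set.disjoint_left.1 (h2 _ _ (by simp)) ha ho
  have hAn : A.Nonempty := (hne (Sum.inl (Classical.arbitrary W₁))).mono (hsA _)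
  have hBn : B.Nonempty := (hne (Sum.inr (Classical.arbitrary W₂))).mono (hsB _)
  obtain ⟨a, ha, P, hPA, ⟨b, hbP, hbB, hb⟩, hPc, x, hxP, hax⟩ :=
    H578.exists_link hG hAn hBn hAB
  rw [hA] at ha
  rw [hB] at hbB
  obtain ⟨x₀, hx₀⟩ := Set.mem_iUnion.1 ha
  obtain ⟨y₀, hy₀⟩ := Set.mem_iUnion.1 hbB
  have hPB : ∀ y, y ≠ y₀ → Disjoint P (μ (Sum.inr y)) := by
    intro y hy
    rw [Set.disjoint_left]
    intro z hz hz'
    have hzb := hb z hz (hsB y hz')
    rw [hzb] at hz'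
    exact Set.disjoint_left.1 (h2 (Sum.inr y) (Sum.inr y₀) fun h => hy (Sum.inr.inj h)) hz' hy₀
  have hPA' : ∀ a, Disjoint P (μ (Sum.inl a)) := fun a => hPA.mono_right (hsA a)
  obtain ⟨ν, hν1, hν2, hν3⟩ : ∃ ν : W₁ ⊕ W₂ → Set V, (∀ a, ν (Sum.inl a) = μ (Sum.inl a)) ∧
      (∀ y, y ≠ y₀ → ν (Sum.inr y) = μ (Sum.inr y)) ∧
      ν (Sum.inr y₀) = P ∪ μ (Sum.inr y₀) := by
    refine ⟨Sum.elim (fun a => μ (Sum.inl a))
      (fun y => if y = y₀ then P ∪ μ (Sum.inr y₀) else μ (Sum.inr y)), fun a => rfl,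
      fun y hy => ?_, ?_⟩
    · show (if y = y₀ then _ else _) = _
      rw [if_neg hy]
    · show (if y₀ = y₀ then _ else _) = _
      rw [if_pos rfl]
  have hsub : ∀ c, μ c ⊆ ν c := by
    rintro (c | c)
    · rw [hν1]
    · by_cases hc : c = y₀
      · rw [hc, hν3]
        exact Set.subset_union_right
      · rw [hν2 c hc]
  refine ⟨x₀, y₀, ν, ?_, ?_, ?_⟩
  · rintro (c | c)
    · rw [hν1]
      exact h1 _
    · by_cases hc : c = y₀
      · rw [hc, hν3]
        exact H578.conn_union' hPc (h1 _) ⟨b, hbP, hy₀⟩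
      · rw [hν2 c hc]
        exact h1 _
  · have key : ∀ c d : W₁ ⊕ W₂, c ≠ d → d ≠ Sum.inr y₀ → Disjoint (ν c) (ν d) := by
      intro c d hcd hd
      have hd' : ν d = μ d := by
        rcases d with d | d
        · exact hν1 d
        · exact hν2 d fun h => hd (by rw [h])
      rw [hd']
      by_cases hc : c = Sum.inr y₀
      · rw [hc, hν3]
        refine Set.disjoint_union_left.2 ⟨?_, h2 _ _ (Ne.symm hd)⟩
        rcases d with d | d
        · exact hPA' d
        · exact hPB d fun h => hd (by rw [h])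
      · have hc' : ν c = μ c := by
          rcases c with c | c
          · exact hν1 c
          · exact hν2 c fun h => hc (by rw [h])
        rw [hc']
        exact h2 _ _ hcd
    intro c d hcd
    by_cases hd : d = Sum.inr y₀
    · exact (key d c (Ne.symm hcd) fun h => hcd (h.trans hd.symm)).symm
    · exact key c d hcd hd
  · intro c d hcd
    rcases (SimpleGraph.sup_adj _ _ _ _).1 hcd with h | h
    · obtain ⟨p, hp, q, hq, hpq⟩ := h3 c d h
      exact ⟨p, hsub c hp, q, hsub d hq, hpq⟩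
    · rw [SimpleGraph.edge_adj] at h
      rcases h.1 with ⟨hc, hd⟩ | ⟨hc, hd⟩
      · subst hc hd
        rw [hν1, hν3]
        exact ⟨a, hx₀, x, Or.inl hxP, hax⟩
      · subst hc hd
        rw [hν1, hν3]
        exact ⟨x, Or.inl hxP, a, hx₀, hax.symm⟩

/-- two `K_{3,3}` joined by an edge -/
def barbell : SimpleGraph ((Fin 3 ⊕ Fin 3) ⊕ (Fin 3 ⊕ Fin 3)) :=
  bridge K33 K33 (Sum.inl 0) (Sum.inl 0)

theorem minor_barbell {V : Type} {G : SimpleGraph V} (hG : G.Connected)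
    (hm : IsMinor (K33 ⊕g K33) G) : IsMinor barbell G := by
  obtain ⟨x, y, hxy⟩ := link hG hm
  obtain ⟨π, hπ, hπ'⟩ := H578.exists_pi x
  obtain ⟨σ, hσ, hσ'⟩ := H578.exists_pi y
  refine isMinor_comp (Sum.map π σ) (π.injective.sumMap σ.injective) ?_ hxy
  intro c d hcd
  rcases (SimpleGraph.sup_adj _ _ _ _).1 hcd with h | h
  · refine (SimpleGraph.sup_adj _ _ _ _).2 (Or.inl ?_)
    rcases c with c | c <;> rcases d with d | d
    · exact hπ' c d h
    · exact absurd h (by simp)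
    · exact absurd h (by simp)
    · exact hσ' c d h
  · refine (SimpleGraph.sup_adj _ _ _ _).2 (Or.inr ?_)
    rw [SimpleGraph.edge_adj] at h ⊢
    rcases h.1 with ⟨hc, hd⟩ | ⟨hc, hd⟩
    · subst hc hd
      exact ⟨Or.inl ⟨by rw [Sum.map_inl, hπ], by rw [Sum.map_inr, hσ]⟩, by simp⟩
    · subst hc hd
      exact ⟨Or.inr ⟨by rw [Sum.map_inr, hσ], by rw [Sum.map_inl, hπ]⟩, by simp⟩

/-- graphs without two disjoint `K_{3,3}` -/
theorem free_barbell : ∃ C : ℝ, Free barbell C := by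
  obtain ⟨K, hK0, -, hK1⟩ : ∃ K : ℝ, 1 ≤ K ∧ True ∧ Free K33 K := by
    obtain ⟨C, hC, h1, -⟩ := main
    exact ⟨C, hC, trivial, fun V _ G hc hno => (h1 V G hc hno).2⟩
  exact ⟨_, fun V _ G hc hno => union_free K33 K33 hK0 hK0 hK1 hK1 V G hc fun hm =>
    hno (minor_barbell hc hm)⟩

/-- components, as connected components -/
theorem iter' (W : Type) [Finite W] (H : SimpleGraph W)
    (h : ∀ c : H.ConnectedComponent, ∃ C : ℝ, Free (H.induce c.supp) C) :
    ∃ C : ℝ, Free H C := by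
  refine components H fun a => ?_
  have e : {b | H.Reachable a b} = (H.connectedComponentMk a).supp := by
    ext b
    rw [ConnectedComponent.mem_supp_iff, ConnectedComponent.eq]
    exact ⟨fun h => h.symm, fun h => h.symm⟩
  rw [e]
  exact h _

/-- every component of `H` is planar or a minor of some `jj r` -/
def Comps {W : Type} (H : SimpleGraph W) : Prop :=
  ∀ a, Planar (H.induce {b | H.Reachable a b}) ∨
    ∃ r, 1 ≤ r ∧ IsMinor (H.induce {b | H.Reachable a b}) (H578.jj r)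

theorem free_comps {W : Type} [Finite W] (H : SimpleGraph W) (h : Comps H) :
    ∃ K : ℝ, 0 ≤ K ∧ Free H K := by
  obtain ⟨C, hC⟩ : ∃ C : ℝ, Free H C := by
    refine components H fun a => ?_
    rcases h a with hp | ⟨r, hr, hm⟩
    · exact excludedPlanar _ _ hp
    · obtain ⟨K, -, hK⟩ := jj_free r hr
      exact ⟨K, fun V _ G hc hno => (hK V G hc fun hj => hno (minor_trans hm hj)).2⟩
  exact ⟨max C 0, le_max_right _ _, free_mono (le_max_left _ _) hC⟩

/-- **The hand-in.** -/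
theorem main3 : ∃ C : ℝ, 1 ≤ C ∧
    (∀ (V : Type) [Finite V] (G : SimpleGraph V), G.Connected → ¬ IsMinor K33 G →
      EdgeIso G C ∧ DistortionLE G C) ∧
    (∀ (t : ℕ) (V : Type) [Finite V] (G : SimpleGraph V), G.Connected →
      (∃ S : Set V, S.ncard ≤ t ∧ ∀ u ∉ S, ¬ IsMinor K33 (G.induce (compSet G S u))) →
        DistortionLE G (C * Real.log (t + 2))) ∧
    (∀ (w t : ℕ) (V : Type) [Finite V] (G : SimpleGraph V), G.Connected →
      (∀ (W : Type) [Finite W] (H : SimpleGraph W), H.Connected → Conn3 H → IsMinor H G →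
        ST.H626.PlanePiece w t W H) →
        EdgeIso G (C * (w + Real.log (t + 2))) ∧ DistortionLE G (C * (w + Real.log (t + 2)))) ∧
    (∀ k w t : ℕ, ∃ K : ℝ, ∀ (V : Type) [Finite V] (G : SimpleGraph V), G.Connected →
      (∀ (W : Type) [Finite W] (H : SimpleGraph W), H.Connected → Conn3 H → IsMinor H G →
        ST.H945.PlaneTw k w t W H) → EdgeIso G K ∧ DistortionLE G K) ∧
    (∀ (W : Type) [Finite W] (H : SimpleGraph W), Comps H →
      ∃ K : ℝ, Free H K ∧
      ∀ (t : ℕ) (V : Type) [Finite V] (G : SimpleGraph V), G.Connected →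
        (∃ S : Set V, S.ncard ≤ t ∧ ∀ u ∉ S, ¬ IsMinor H (G.induce (compSet G S u))) →
          DistortionLE G (C * (K + Real.log (t + 2)))) ∧
    (∀ F : (V : Type) → SimpleGraph V → Prop, MinorClosed F →
      ((∃ (W : Type) (_ : Finite W) (H : SimpleGraph W), Comps H ∧
        ∀ (V : Type) [Finite V] (G : SimpleGraph V), F V G → ¬ IsMinor H G) ∨
      (∃ (W : Type) (_ : Finite W) (H : SimpleGraph W), H.Connected ∧
        IsMinor H barbell ∧ ¬ F W H)) →
      ∃ K : ℝ, ∀ (V : Type) [Finite V] (G : SimpleGraph V), G.Connected → F V G →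
        DistortionLE G K) ∧
    (∀ F : (V : Type) → SimpleGraph V → Prop, MinorClosed F →
      (∃ (r : ℕ) (W : Type) (_ : Finite W) (H : SimpleGraph W), 1 ≤ r ∧ H.Connected ∧
        IsMinor H (H578.jj r) ∧ ¬ F W H) →
      ∃ K : ℝ, ∀ (V : Type) [Finite V] (G : SimpleGraph V), G.Connected → F V G →
        EdgeIso G K ∧ DistortionLE G K) ∧
    (∀ (P : Type) [Finite P] (H : SimpleGraph P), Planar H →
      ∃ K : ℝ, ∀ (V : Type) [Finite V] (G : SimpleGraph V), G.Connected →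
        ¬ IsMinor (K33 ⊕g H) G → EdgeIso G K ∧ DistortionLE G K) := by
  obtain ⟨C0, hC0, h1, -, h3, h4, h5⟩ := main
  obtain ⟨A, hA, hA'⟩ := apex_log'
  have hlog : ∀ t : ℕ, (0 : ℝ) ≤ Real.log ((t : ℝ) + 2) := fun t =>
    Real.log_nonneg (by have : (0 : ℝ) ≤ t := Nat.cast_nonneg t; linarith)
  refine ⟨max C0 A, hC0.trans (le_max_left _ _), ?_, ?_, ?_, h5, ?_, ?_, ?_, ?_⟩
  · intro V _ G hG hK
    have h := h1 V G hG hK
    exact ⟨ST.H626.EdgeIso.mono' h.1 (le_max_left _ _), h.2.mono (le_max_left _ _)⟩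
  · intro t V _ G hG hS
    refine (h3 t V G hG hS).mono ?_
    exact mul_le_mul_of_nonneg_right (le_max_left _ _) (hlog t)
  · intro w t V _ G hG h
    have h' := h4 w t V G hG h
    have hw : (0 : ℝ) ≤ w := Nat.cast_nonneg w
    have h6 : C0 * (w + Real.log ((t : ℝ) + 2)) ≤ max C0 A * (w + Real.log ((t : ℝ) + 2)) :=
      mul_le_mul_of_nonneg_right (le_max_left _ _) (by have := hlog t; linarith)
    exact ⟨ST.H626.EdgeIso.mono' h'.1 h6, h'.2.mono h6⟩
  · intro W _ H hH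
    obtain ⟨K, hK0, hK⟩ := free_comps H hH
    refine ⟨K, hK, fun t V _ G hG hS => ?_⟩
    refine (apex_of hA hK0 (P := fun V G => ¬ IsMinor H G) hA' hK t V G hG hS).mono ?_
    exact mul_le_mul_of_nonneg_right (le_max_right _ _) (by have := hlog t; linarith)
  · rintro F hF (⟨W, _, H, hH, hno⟩ | ⟨W, hW, H, hH, hm, hFH⟩)
    · obtain ⟨K, -, hK⟩ := free_comps H hH
      exact ⟨K, fun V _ G hG hFG => hK V G hG (hno V G hFG)⟩
    · obtain ⟨K, hK⟩ := free_barbell
      refine ⟨K, fun V _ G hG hFG => hK V G hG fun h => hFH ?_⟩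
      exact minor F hF V W G H hG hH (minor_trans hm h) hFG
  · rintro F hF ⟨r, W, hW, H, hr, hH, hm, hFH⟩
    obtain ⟨K, -, hK⟩ := jj_free r hr
    refine ⟨K, fun V _ G hG hFG => hK V G hG fun h => hFH ?_⟩
    exact minor F hF V W G H hG hH (minor_trans hm h) hFG
  · intro P _ H hP
    obtain ⟨K, hK0, hK⟩ := planar_free P H hP
    exact ⟨K, hK⟩

end Vale.Agent.P235.H12
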