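import Vale.Agent.P235.R2.H324.KrAll
import Vale.Agent.P235.H606.UDefs
import Mathlib.Combinatorics.SimpleGraph.Sum

/-!
P235 (helper12 for helper606).  Theorem U, last step: deleting a set `A` whose metric embeds, and the
assembly of `UnionStmt` from the other blocks.
-/

set_option autoImplicit false

namespace Vale.Agent.P235.H12

open SimpleGraph hiding Free
open Vale.Agent.P235 Vale.Agent.P235.H134 Vale.Agent.P235.H606

theorem compSet_sub {V : Type} {G : SimpleGraph V} {X : Set V} {u : V} :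
    compSet G X u ⊆ Xᶜ := by
  rintro v ⟨p, hp⟩
  exact hp v p.end_mem_support

theorem mem_compSet {V : Type} {G : SimpleGraph V} {X : Set V} {u : V} (hu : u ∉ X) :
    u ∈ compSet G X u := ⟨Walk.nil, by simpa using hu⟩

theorem compSet_connected {V : Type} {G : SimpleGraph V} {X : Set V} {u : V} (hu : u ∉ X) :
    (G.induce (compSet G X u)).Connected := by
  have hne : Nonempty (compSet G X u) := ⟨⟨u, mem_compSet hu⟩⟩
  have key : ∀ (v : V) (hv : v ∈ compSet G X u),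
      (G.induce (compSet G X u)).Reachable ⟨u, mem_compSet hu⟩ ⟨v, hv⟩ := by
    rintro v ⟨p, hp⟩
    have hsub : ∀ x ∈ p.support, x ∈ compSet G X u := by
      intro x hx
      classical
      exact ⟨p.takeUntil x hx, fun a ha => hp a (p.support_takeUntil_subset_support hx ha)⟩
    exact ⟨p.induce (compSet G X u) hsub⟩
  refine ⟨fun a b => ?_⟩
  exact (key a.1 a.2).symm.trans (key b.1 b.2)

theorem embedsL1_mono {X : Type} {d : X → X → ℝ} {C C' : ℝ} (hd : ∀ x y, 0 ≤ d x y) (h : C ≤ C')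
    (hE : EmbedsL1 d C) : EmbedsL1 d C' := by
  obtain ⟨Ω, μ', μ, f, hf⟩ := hE
  exact ⟨Ω, μ', μ, f, fun x y => ⟨(hf x y).1, (hf x y).2.trans
    (mul_le_mul_of_nonneg_right h (hd x y))⟩⟩

theorem isL1_zero {V : Type} : IsL1 (fun _ _ : V => (0 : ℝ)) :=
  ⟨Empty, inferInstance, fun i => i.elim, fun i => i.elim, fun i => i.elim, by simp⟩

theorem induce_pos' {V : Type} {G : SimpleGraph V} {ℓ : Sym2 V → ℝ}
    (hℓ : ∀ e ∈ G.edgeSet, 0 < ℓ e) (S : Set V) :
    ∀ e ∈ (G.induce S).edgeSet, 0 < ℓ (e.map Subtype.val) := by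
  intro e he
  induction e using Sym2.ind with
  | _ x y => exact hℓ s(x.1, y.1) he

/-- (DELA) delete any set, in a graph without a `K_r` minor -/
theorem delAStmt : DelAStmt := by
  intro V _ G ℓ r A B Q hc hK hℓ hA hB hQ hE hS
  have h3 : 0 ≤ ((r : ℝ) + 2) ^ 3 * B := by positivity
  have h0 : Pk.MinorRounds Q 0 0 0 0 (0 + ((r : ℝ) + 2) ^ 3 * B) G ℓ := by
    refine Pk.MinorRounds.set (S := compSet G A) hK hA hB hE
      (fun u hu => ⟨subset_rfl, compSet_connected hu⟩) le_rfl fun u hu => ?_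
    exact Pk.MinorRounds.leaf (hS u hu _ (induce_pos' hℓ _))
  have h5 := MinR.minorRounds_all hQ (by linarith) hc hℓ h0
  refine embedsL1_mono (fun x y => (pathDist_isMet hc hℓ).nonneg x y) ?_ h5
  have : (1600000000 : ℝ) * (Q + √((0 : ℕ) : ℝ) * Real.log (((0 : ℕ) : ℝ) + 2) +
      ((0 : ℕ) : ℝ) * (((0 : ℕ) : ℝ) + 1) + (0 + ((r : ℝ) + 2) ^ 3 * B)) =
      1600000000 * (Q + ((r : ℝ) + 2) ^ 3 * B) := by
    simp
  exact this.le

/-- (FINU) assembly of Theorem U -/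
theorem unionStmt_of (hInd : IndStmt) (hBall : BallStmt) (hSpl : SplStmt) (hNoK : NoKStmt)
    (hLoc : LocStmt) (hGlue : GlueStmt) (hBin : BinStmt) : UnionStmt := by
  intro W₁ W₂ _ _ _ H₁ H₂ C₁ C₂ hC₁ hC₂ hF₁ hF₂ V _ G hc hno ℓ hℓ
  have hd := pathDist_isMet hc hℓ
  obtain ⟨r, hr⟩ : ∃ r : ℕ, r = Nat.card W₁ + Nat.card W₂ := ⟨_, rfl⟩
  have hK : Kr.NoK r G := by
    have h := hNoK V (W₁ ⊕ W₂) G (H₁ ⊕g H₂) hno
    rwa [Nat.card_sum, ← hr] at h
  rw [← hr]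
  obtain ⟨q, hq⟩ : ∃ q : ℝ, q = ((r : ℝ) + 2) ^ 3 := ⟨_, rfl⟩
  have hq1 : 1 ≤ q := by
    rw [hq]
    exact one_le_pow₀ (by have : (0 : ℝ) ≤ r := Nat.cast_nonneg r; linarith)
  have hq2 : ((r : ℝ) + 2) ^ 6 = q * q := by rw [hq]; ring
  have hqq : 1 ≤ q * q := by nlinarith
  rw [hq2]
  by_cases hm : IsMinor H₁ G
  swap
  · refine embedsL1_mono (fun x y => hd.nonneg x y) ?_ (hF₁ V G hc hm ℓ hℓ)
    nlinarith [mul_nonneg (sub_nonneg.2 hqq) (by linarith : (0 : ℝ) ≤ C₁ + C₂)]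
  obtain ⟨o, R, hR, hb1, hb2⟩ := hBall V G ℓ W₁ H₁ hc hℓ hm
  have hbin : EmbedsL1 (fun x y : ball G ℓ o R => pathDist G ℓ x y) (2 * (10000 * q * C₁)) := by
    refine hBin V G ℓ o R (10000 * q * C₁) hc hℓ ?_
    rcases hR.eq_or_lt with h0 | h0
    · refine ⟨fun _ _ => 0, isL1_zero, fun x y => ?_, fun x y => ?_⟩
      · have := hd.nonneg x y
        positivity
      · rw [← h0]
        exact min_le_right _ _
    · obtain ⟨F, h1, h2, h3⟩ := hGlue V G ℓ r R C₁ hc hK hℓ h0 hC₁ fun v =>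
        hLoc V G ℓ v R C₁ hc hℓ h0 hC₁
          (hF₁ _ _ (hInd V G ℓ v (R / 2) hc hℓ (by linarith)).1 (hb2 v (R / 2) (by linarith)))
      refine ⟨F, h1, fun x y => ?_, h3⟩
      rw [hq]
      exact h2 x y
  have hA : (ball G ℓ o R).Nonempty := by
    refine ⟨o, ?_⟩
    show pathDist G ℓ o o ≤ R
    rw [hd.self o]
    exact hR
  have hfin := delAStmt V G ℓ r (ball G ℓ o R) (2 * (10000 * q * C₁)) C₂ hc hK hℓ hA
    (by nlinarith) hC₂ hbin fun u hu =>
      hF₂ _ _ (compSet_connected hu) fun h => hno (hSpl V W₁ W₂ G H₁ H₂ _ u hb1 h)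
  refine embedsL1_mono (fun x y => hd.nonneg x y) ?_ hfin
  rw [← hq]
  have e1 : 0 ≤ (q * q - 1) * C₂ := mul_nonneg (by linarith) (by linarith)
  have e2 : 0 ≤ q * q * C₁ := by positivity
  nlinarith

end Vale.Agent.P235.H12
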