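import Vale.Agent.P235.H12.BDefs
import Vale.Agent.P235.H12.FinU
import Vale.Agent.P235.H786.Ball
import Vale.Agent.P235.H105.Comb

/-!
P235 (helper12).  (GEO): deletion of a geodesic inside a bad set, any graph.
-/

set_option autoImplicit false

namespace Vale.Agent.P235.H12

open SimpleGraph hiding Free
open Vale.Agent.P235 Vale.Agent.P235.H134 Vale.Agent.P235.H606

theorem bad_mono {V : Type} [Finite V] {G : SimpleGraph V} {C C' : ℝ} (h : C ≤ C') {D : Set V}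
    (hD : Bad G C' D) : Bad G C D :=
  ⟨hD.1, fun hE => hD.2 fun ℓ hℓ => embedsL1_mono
    (fun x y => (pathDist_isMet hD.1 hℓ).nonneg x y) h (hE ℓ hℓ)⟩

/-- (GEO) without an excluded minor -/
theorem geo {V : Type} [Finite V] {G : SimpleGraph V} {Q : ℝ} {S : Set V} {u v : V} (hQ : 0 < Q)
    (hu : u ∈ S) (hv : v ∈ S) (h : Bad G (1 + 2 * (96 * Q + 112)) S) :
    ∃ P D : Set V, P ⊆ S ∧ D ⊆ S ∧ Disjoint P D ∧ u ∈ P ∧ v ∈ P ∧ (G.induce P).Connected ∧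
      Bad G Q D ∧ ∃ z ∈ P, ∃ x ∈ D, G.Adj z x := by
  classical
  by_contra hcon
  refine h.2 (distortion_geodesic hQ h.1 fun ℓ hℓ => ?_)
  obtain ⟨p, hp⟩ := exists_geodesic h.1 hℓ ⟨u, hu⟩ ⟨v, hv⟩
  refine ⟨⟨u, hu⟩, ⟨v, hv⟩, p, hp, fun w hw => ?_⟩
  by_contra hbad
  apply hcon
  obtain ⟨X, hX⟩ : ∃ X : Set S, X = {x | x ∈ p.support} := ⟨_, rfl⟩
  have hwX : w ∉ X := by rw [hX]; exact hw
  have hXne : X.Nonempty := ⟨⟨u, hu⟩, by rw [hX]; exact p.start_mem_support⟩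
  obtain ⟨ν, hν⟩ := exists_near h.1 hℓ hXne
  obtain ⟨h1, y, hy, hyx⟩ := hν.att w hwX
  rw [← hX] at hbad
  have hcc := compSet_connected (G := G.induce S) hwX
  refine ⟨Subtype.val '' X, Subtype.val '' compSet (G.induce S) X w, ?_, ?_, ?_, ?_, ?_, ?_,
    ⟨H786.conn_coe hcc, fun hE => hbad ?_⟩, ν w, ⟨_, h1, rfl⟩, y, ⟨_, hy, rfl⟩, hyx.symm⟩
  · rintro _ ⟨x, -, rfl⟩
    exact x.2
  · rintro _ ⟨x, -, rfl⟩
    exact x.2
  · refine Set.disjoint_image_of_injective Subtype.val_injective ?_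
    rw [Set.disjoint_left]
    exact fun x hx hx' => compSet_sub hx' hx
  · exact ⟨⟨u, hu⟩, by rw [hX]; exact p.start_mem_support, rfl⟩
  · exact ⟨⟨v, hv⟩, by rw [hX]; exact p.end_mem_support, rfl⟩
  · refine H786.conn_coe ?_
    rw [hX]
    exact p.connected_induce_support
  · exact DistortionLE.iso (induceIso _).symm (H786.conn_coe hcc) hE

end Vale.Agent.P235.H12
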