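import Vale.Agent.P235.H606.UDefs
import Vale.Agent.P235.H12.FinU
import Mathlib.Combinatorics.SimpleGraph.Sum

/-!
P235 (helper12 for helper606).  Theorem U iterated: a graph all of whose components are good
excluded minors is a good excluded minor.
-/

set_option autoImplicit false

namespace Vale.Agent.P235.H12

open SimpleGraph hiding Free
open Vale.Agent.P235 Vale.Agent.P235.H134 Vale.Agent.P235.H606

/-- a subgraph of a minor is a minor -/
theorem isMinor_comp {W X V : Type} {H : SimpleGraph W} {K : SimpleGraph X} {G : SimpleGraph V}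
    (f : W → X) (hf : Function.Injective f) (h : ∀ a b, H.Adj a b → K.Adj (f a) (f b))
    (hK : IsMinor K G) : IsMinor H G := by
  obtain ⟨μ, h1, h2, h3⟩ := hK
  exact ⟨fun a => μ (f a), fun a => h1 _, fun a b hab => h2 _ _ (hf.ne hab),
    fun a b hab => h3 _ _ (h a b hab)⟩

theorem free_mono {W : Type} {H : SimpleGraph W} {C C' : ℝ} (hCC : C ≤ C') (h : Free H C) :
    Free H C' := fun V _ G hc hno ℓ hℓ =>
  embedsL1_mono (fun x y => (pathDist_isMet hc hℓ).nonneg x y) hCC (h V G hc hno ℓ hℓ)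

/-- the step of the induction, any constants -/
theorem free_union (hU : UnionStmt) {W₁ W₂ : Type} [Finite W₁] [Finite W₂] [Nonempty W₁]
    {H₁ : SimpleGraph W₁} {H₂ : SimpleGraph W₂} (h1 : ∃ C : ℝ, Free H₁ C) (h2 : ∃ C : ℝ, Free H₂ C) :
    ∃ C : ℝ, Free (H₁ ⊕g H₂) C := by
  obtain ⟨C₁, h1⟩ := h1
  obtain ⟨C₂, h2⟩ := h2
  exact ⟨_, hU W₁ W₂ H₁ H₂ (max C₁ 1) (max C₂ 1) (le_max_right _ _) (le_max_right _ _)
    (free_mono (le_max_left _ _) h1) (free_mono (le_max_left _ _) h2)⟩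

/-- closed sets of vertices -/
theorem iter_set (hU : UnionStmt) {W : Type} [Finite W] (H : SimpleGraph W)
    (h : ∀ a, ∃ C : ℝ, Free (H.induce {b | H.Reachable a b}) C) (n : ℕ) :
    ∀ S : Set W, S.ncard ≤ n → (∀ a ∈ S, ∀ b, H.Adj a b → b ∈ S) →
      ∃ C : ℝ, Free (H.induce S) C := by
  classical
  induction n with
  | zero =>
    intro S hS _
    have hS0 : S = ∅ := (Set.ncard_eq_zero (Set.toFinite S)).1 (Nat.le_zero.1 hS)
    subst hS0
    exact ⟨0, fun V _ G _ hno => absurd ⟨fun a => a.2.elim, fun a => a.2.elim,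
      fun a => a.2.elim, fun a => a.2.elim⟩ hno⟩
  | succ n ih =>
    intro S hS hcl
    rcases S.eq_empty_or_nonempty with hS0 | ⟨a, ha⟩
    · subst hS0
      exact ⟨0, fun V _ G _ hno => absurd ⟨fun a => a.2.elim, fun a => a.2.elim,
        fun a => a.2.elim, fun a => a.2.elim⟩ hno⟩
    obtain ⟨T, hT⟩ : ∃ T : Set W, T = {b | H.Reachable a b} := ⟨_, rfl⟩
    have haT : a ∈ T := by rw [hT]; exact Reachable.refl a
    have hTcl : ∀ x y, H.Adj x y → (x ∈ T ↔ y ∈ T) := by
      intro x y hxy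
      rw [hT]
      exact ⟨fun hx => Reachable.trans hx hxy.reachable,
        fun hy => Reachable.trans hy hxy.symm.reachable⟩
    have hlt : (S \ T).ncard < S.ncard :=
      Set.ncard_lt_ncard ⟨Set.sdiff_subset, fun hh => (hh ha).2 haT⟩ (Set.toFinite S)
    have hcl' : ∀ x ∈ S \ T, ∀ y, H.Adj x y → y ∈ S \ T := fun x hx y hxy =>
      ⟨hcl x hx.1 y hxy, fun hy => hx.2 ((hTcl x y hxy).2 hy)⟩
    have h1 : ∃ C : ℝ, Free (H.induce T) C := by rw [hT]; exact h a
    have h2 := ih (S \ T) (by omega) hcl'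
    have : Nonempty T := ⟨⟨a, haT⟩⟩
    obtain ⟨C, hC⟩ := free_union hU h1 h2
    refine ⟨C, fun V _ G hc hno => hC V G hc fun hm => hno ?_⟩
    let f : S → T ⊕ (S \ T : Set W) := fun x =>
      if hx : x.1 ∈ T then Sum.inl ⟨x.1, hx⟩ else Sum.inr ⟨x.1, x.2, hx⟩
    have hf1 : ∀ (x : S) (hx : x.1 ∈ T), f x = Sum.inl ⟨x.1, hx⟩ := fun x hx => dif_pos hx
    have hf2 : ∀ (x : S) (hx : x.1 ∉ T), f x = Sum.inr ⟨x.1, x.2, hx⟩ := fun x hx => dif_neg hx
    refine isMinor_comp f ?_ ?_ hm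
    · intro x y hxy
      by_cases hx : x.1 ∈ T <;> by_cases hy : y.1 ∈ T
      · rw [hf1 x hx, hf1 y hy] at hxy
        exact Subtype.ext (Subtype.mk.inj (Sum.inl.inj hxy))
      · rw [hf1 x hx, hf2 y hy] at hxy
        exact absurd hxy (by simp)
      · rw [hf2 x hx, hf1 y hy] at hxy
        exact absurd hxy (by simp)
      · rw [hf2 x hx, hf2 y hy] at hxy
        exact Subtype.ext (Subtype.mk.inj (Sum.inr.inj hxy))
    · intro x y hxy
      have hxy' : H.Adj x.1 y.1 := hxy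
      by_cases hx : x.1 ∈ T
      · have hy := (hTcl _ _ hxy').1 hx
        rw [hf1 x hx, hf1 y hy]
        exact hxy'
      · have hy : y.1 ∉ T := fun hy => hx ((hTcl _ _ hxy').2 hy)
        rw [hf2 x hx, hf2 y hy]
        exact hxy'

/-- (ITER) a graph all of whose components are good excluded minors is a good excluded minor -/
theorem iter (hU : UnionStmt) {W : Type} [Finite W] (H : SimpleGraph W)
    (h : ∀ a, ∃ C : ℝ, Free (H.induce {b | H.Reachable a b}) C) : ∃ C : ℝ, Free H C := by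
  obtain ⟨C, hC⟩ := iter_set hU H h _ Set.univ le_rfl fun _ _ _ _ => Set.mem_univ _
  exact ⟨C, fun V _ G hc hno => hC V G hc fun hm => hno
    (isMinor_comp (fun a => (⟨a, Set.mem_univ a⟩ : (Set.univ : Set W)))
      (fun a b hab => congrArg Subtype.val hab) (fun a b hab => hab) hm)⟩

end Vale.Agent.P235.H12
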