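import Vale.Agent.P235.R2.H324.KrAll
import Vale.Agent.P235.H606.PDefs
import Vale.Agent.P235.H606.Loc

/-!
P235 (helper12 for helper606).  (VAR): a set `X` whose metric embeds, and good balls of radius up to
`δ d(v, X)` around all vertices `v`.
-/

set_option autoImplicit false

namespace Vale.Agent.P235.H12

open SimpleGraph hiding Free
open Vale.Agent.P235 Vale.Agent.P235.H134 Vale.Agent.P235.H606

theorem isL1_le_pathDist {V : Type} [Finite V] {G : SimpleGraph V} {ℓ : Sym2 V → ℝ}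
    (hc : G.Connected) {F : V → V → ℝ} (hF : IsL1 F)
    (h : ∀ u v, G.Adj u v → F u v ≤ ℓ s(u, v)) (x y : V) : F x y ≤ pathDist G ℓ x y := by
  have h1 := pathDist_gen (G := G) (ℓ := ℓ) hc (f := fun v => F x v) (fun u v huv => by
    rw [abs_le]
    have a1 := hF.tri x u v
    have a2 := hF.tri x v u
    have a3 := h u v huv
    rw [hF.symm v u] at a2
    constructor <;> linarith) x y
  have h2 : F x x = 0 := hF.self x
  have h3 := neg_le_abs (F x x - F x y)
  simp only [h2] at h1 h3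
  linarith

theorem varStmt_of (hGlue : GlueSStmt) (hLoc : LocStmt) (hScl : SclStmt) : VarStmt := by
  intro V _ G ℓ r X B C δ hc hK hℓ hX hB hC hδ hδ1 hE hball
  have hd := pathDist_isMet hc hℓ
  obtain ⟨ν, hν⟩ := exists_near hc hℓ hX
  obtain ⟨q, hq⟩ : ∃ q : ℝ, q = ((r : ℝ) + 2) ^ 3 := ⟨_, rfl⟩
  have hq1 : 1 ≤ q := by
    rw [hq]
    exact one_le_pow₀ (by have : (0 : ℝ) ≤ r := Nat.cast_nonneg r; linarith)
  obtain ⟨s, hs⟩ : ∃ s : V → ℝ, s = fun v => pathDist G ℓ v (ν v) := ⟨_, rfl⟩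
  have hsv : ∀ v, s v = pathDist G ℓ v (ν v) := fun v => by rw [hs]
  have hs0 : ∀ v, 0 ≤ s v := fun v => by rw [hsv]; exact hd.nonneg _ _
  have hsl : ∀ x y, |s x - s y| ≤ pathDist G ℓ x y := by
    intro x y
    have a1 := hν.lip hc hℓ x y
    have a2 := hν.lip hc hℓ y x
    rw [hd.symm y x] at a2
    rw [abs_le, hsv, hsv]
    constructor <;> linarith
  -- the maps at scale `2 ^ k`
  have hF : ∀ k : ℤ, ∃ F : V → V → ℝ, IsL1 F ∧
      (∀ x y, F x y ≤ (10000 * q * C) * pathDist G ℓ x y) ∧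
      ∀ x y, (2 : ℝ) ^ k ≤ 2 * s x → min (pathDist G ℓ x y) (δ / 2 * 2 ^ k) ≤ F x y := by
    intro k
    have h2 : (0 : ℝ) < 2 ^ k := zpow_pos (by norm_num) k
    have hR : 0 < δ / 2 * 2 ^ k := by positivity
    obtain ⟨F, f1, f2, f3⟩ := hGlue V G ℓ r (δ / 2 * 2 ^ k) C {v | (2 : ℝ) ^ k ≤ 2 * s v} hc hK hℓ
      hR hC fun v hv => hLoc V G ℓ v (δ / 2 * 2 ^ k) C hc hℓ hR hC
        (hball v (δ / 2 * 2 ^ k / 2) (by positivity) fun x hx => by
          have hv' : (2 : ℝ) ^ k ≤ 2 * s v := hv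
          have b1 : s v ≤ pathDist G ℓ v x := by rw [hsv]; exact hν.le v x hx
          have b2 : 0 < s v := by linarith
          have b3 : δ * (2 : ℝ) ^ k ≤ δ * (2 * s v) := mul_le_mul_of_nonneg_left hv' hδ.le
          have b4 : δ * s v ≤ δ * pathDist G ℓ v x := mul_le_mul_of_nonneg_left b1 hδ.le
          have b5 : 0 < δ * s v := mul_pos hδ b2
          linarith)
    refine ⟨F, f1, fun x y => ?_, fun x y hx => f3 x hx y⟩
    rw [hq]
    exact f2 x y
  obtain ⟨Q, hQ, q1, q2⟩ := hScl V (pathDist G ℓ) s (10000 * q * C) (δ / 2) hd hs0 hsl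
    (by nlinarith) (by linarith) (by linarith) hF
  obtain ⟨F, hF1, hF2, hF3⟩ := Kr.rowK5 MinR.retr_all V G ℓ r hc hK hℓ X B hX hB hE
  have hF4 := isL1_le_pathDist hc hF1 hF2
  -- the sum
  have hqB : 0 ≤ 1600 * q * B := by positivity
  have hδ0 : 0 ≤ 1600 / δ := by positivity
  refine IsL1.embeds (F := fun x y => 1600 * q * B * F x y + 1600 / δ * Q x y)
    ((hF1.smul hqB).add (hQ.smul hδ0)) (fun x y => ?_) fun x y => ?_
  · rcases eq_or_ne x y with rfl | hxy
    · rw [hd.self]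
      show 0 ≤ 1600 * q * B * F x x + 1600 / δ * Q x x
      rw [hF1.self, hQ.self]
      simp
    have hD := hd.pos x y hxy
    have hFn : 0 ≤ F x y := hF1.nonneg x y
    have hQn : 0 ≤ Q x y := hQ.nonneg x y
    obtain ⟨D, hDd⟩ : ∃ D, D = pathDist G ℓ x y := ⟨_, rfl⟩
    rw [← hDd] at hD ⊢
    have big : ∀ a b, pathDist G ℓ a b = D → Q a b = Q x y → D / 8 < s a →
        D ≤ 1600 * q * B * F x y + 1600 / δ * Q x y := by
      intro a b hab hQab ha
      have c1 := q2 a b
      rw [hab, hQab] at c1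
      have c2 : D / 8 ≤ min D (s a) := le_min (by linarith) ha.le
      have c3 : δ / 2 / 100 * (D / 8) ≤ Q x y :=
        (mul_le_mul_of_nonneg_left c2 (by positivity)).trans c1
      have c4 : 1600 / δ * (δ / 2 / 100 * (D / 8)) = D := by
        field_simp
        ring
      have c5 := mul_le_mul_of_nonneg_left c3 hδ0
      have c6 : 0 ≤ 1600 * q * B * F x y := mul_nonneg hqB hFn
      linarith
    by_cases hsx : D / 8 < s x
    · exact big x y hDd.symm rfl hsx
    by_cases hsy : D / 8 < s y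
    · exact big y x (by rw [hd.symm, hDd]) (hQ.symm y x) hsy
    have c1 := hF3 ν hν x y (D / 8) (by linarith) (by rw [← hsv]; linarith)
      (by rw [← hsv]; linarith) (by rw [← hDd]; linarith)
    rw [← hq] at c1
    have c2 : 0 ≤ 1600 / δ * Q x y := mul_nonneg hδ0 hQn
    have c3 : 1600 * q * B * F x y = 4 * (400 * q * B * F x y) := by ring
    linarith
  · have hn := hd.nonneg x y
    have e1 := mul_le_mul_of_nonneg_left (hF4 x y) hqB
    have e2 := mul_le_mul_of_nonneg_left (q1 x y) hδ0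
    have e3 : 1600 / δ * (20 * (10000 * q * C) * pathDist G ℓ x y) =
        320000000 * q * (C / δ) * pathDist G ℓ x y := by
      field_simp
      ring
    rw [e3] at e2
    have e4 : 0 ≤ q * (C / δ) * pathDist G ℓ x y := by positivity
    have e5 : 0 ≤ q * B * pathDist G ℓ x y := by positivity
    show 1600 * q * B * F x y + 1600 / δ * Q x y ≤
      10 ^ 9 * ((r : ℝ) + 2) ^ 3 * (C / δ + B) * pathDist G ℓ x y
    rw [← hq]
    have e6 : 10 ^ 9 * q * (C / δ + B) * pathDist G ℓ x y =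
        1000000000 * (q * (C / δ) * pathDist G ℓ x y) +
          1000000000 * (q * B * pathDist G ℓ x y) := by ring
    rw [e6]
    have e7 : 1600 * q * B * pathDist G ℓ x y = 1600 * (q * B * pathDist G ℓ x y) := by ring
    have e8 : 320000000 * q * (C / δ) * pathDist G ℓ x y =
        320000000 * (q * (C / δ) * pathDist G ℓ x y) := by ring
    rw [e7] at e1
    rw [e8] at e2
    linarith

end Vale.Agent.P235.H12
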