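import Vale.Agent.P235.H12.AllStar
import Vale.Agent.P235.H12.Var
import Vale.Agent.P235.H648.Pack
import Vale.Agent.P235.H648.All
import Vale.Agent.P235.H648.Comp
import Vale.Agent.P235.H953.Pts
import Vale.Agent.P235.H406.Mono
import Vale.Agent.P235.H23.BadK
import Vale.Agent.P235.H236.SplK
import Vale.Agent.P235.H789.Scl
import Vale.Agent.P235.H273.GlueS
import Vale.Agent.P235.H606.Loc

/-!
P235 (helper12).  The packing theorems and the star packing theorem, everything plugged in.
-/

set_option autoImplicit false

namespace Vale.Agent.P235.H12

open SimpleGraph hiding Free
open Vale.Agent.P235 Vale.Agent.P235.H134 Vale.Agent.P235.H606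

theorem varStmt : VarStmt := varStmt_of H273.glueSStmt locStmt H789.scl

theorem packStmt : PackStmt := H648.pack varStmt H953.pts

theorem badKStmt : BadKStmt := H23.badKStmt H406.mono

theorem allStmt : AllStmt := H648.all_of packStmt badKStmt H236.splK

theorem compStmt : CompStmt := H648.comp_of packStmt

/-- **Star packing**: every connected graph with large `c₁` contains a connected set `Z` and `k + 1`
disjoint connected sets with large `c₁`, off `Z` and adjacent to `Z` -/
theorem allStar : AllStarStmt := allStar_of allStmt

end Vale.Agent.P235.H12
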