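import Vale.Agent.P235.H12.BDefs
import Vale.Agent.P235.H56.Bound2

/-!
P235 (helper12).  (RK33), (RCAP): `K_{3,3}` with any root and the capped grid rooted at the cap are
rooted minors, at every vertex, of every connected graph with large `c₁`.
-/

set_option autoImplicit false

namespace Vale.Agent.P235.H12

open SimpleGraph hiding Free
open Vale.Agent.P235 Vale.Agent.P235.H134 Vale.Agent.P235.H606 Vale.Agent.P235.H56
open Vale.Agent.P235.H141
open Vale.Agent.P235.H341W (capG)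

/-- a connected set which contains `v` and meets `B` in exactly one vertex -/
theorem exists_leg {V : Type} {G : SimpleGraph V} (hG : G.Connected) (v : V) {B : Set V}
    (hB : B.Nonempty) :
    ∃ P : Set V, v ∈ P ∧ (G.induce P).Connected ∧ ∃ b ∈ P, b ∈ B ∧ ∀ x ∈ P, x ∈ B → x = b := by
  by_cases hv : v ∈ B
  · refine ⟨{v}, rfl, ?_, v, rfl, hv, fun x hx _ => hx⟩
    have : Nonempty ({v} : Set V) := ⟨⟨v, rfl⟩⟩
    refine ⟨fun x y => ?_⟩
    rw [Subtype.ext (x.2.trans y.2.symm)]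
  · obtain ⟨a, ha, P, hPA, ⟨b, hbP, hbB, hb⟩, hPc, x, hxP, hax⟩ :=
      H578.exists_link hG (A := {v}) (B := B) ⟨v, rfl⟩ hB (by
        rw [Set.disjoint_singleton_left]
        exact hv)
    obtain rfl : a = v := ha
    have h1 : (G.induce ({a} : Set V)).Connected := by
      have : Nonempty ({a} : Set V) := ⟨⟨a, rfl⟩⟩
      refine ⟨fun x y => ?_⟩
      rw [Subtype.ext (x.2.trans y.2.symm)]
    refine ⟨{a} ∪ P, Or.inl rfl, H578.conn_union h1 hPc ⟨a, rfl, x, hxP, hax⟩, b, Or.inr hbP, hbB,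
      ?_⟩
    rintro y (hy | hy) hyB
    · exact absurd (hy ▸ hyB) hv
    · exact hb y hy hyB

theorem exists_pi' (a x₀ : Fin 3 ⊕ Fin 3) : ∃ π : (Fin 3 ⊕ Fin 3) ≃ (Fin 3 ⊕ Fin 3),
    π a = x₀ ∧ ∀ c d, K33.Adj c d → K33.Adj (π c) (π d) := by
  rcases a with i | i <;> rcases x₀ with j | j
  · refine ⟨Equiv.sumCongr (Equiv.swap i j) (Equiv.refl _), by simp, ?_⟩
    rintro (a | a) (b | b) h
    · simp at h
    · exact Or.inl ⟨rfl, rfl⟩
    · exact Or.inr ⟨rfl, rfl⟩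
    · simp at h
  · refine ⟨(Equiv.sumCongr (Equiv.swap i j) (Equiv.refl _)).trans (Equiv.sumComm _ _),
      by simp, ?_⟩
    rintro (a | a) (b | b) h
    · simp at h
    · exact Or.inr ⟨rfl, rfl⟩
    · exact Or.inl ⟨rfl, rfl⟩
    · simp at h
  · refine ⟨(Equiv.sumCongr (Equiv.refl _) (Equiv.swap i j)).trans (Equiv.sumComm _ _),
      by simp, ?_⟩
    rintro (a | a) (b | b) h
    · simp at h
    · exact Or.inr ⟨rfl, rfl⟩
    · exact Or.inl ⟨rfl, rfl⟩
    · simp at h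
  · refine ⟨Equiv.sumCongr (Equiv.refl _) (Equiv.swap i j), by simp, ?_⟩
    rintro (a | a) (b | b) h
    · simp at h
    · exact Or.inl ⟨rfl, rfl⟩
    · exact Or.inr ⟨rfl, rfl⟩
    · simp at h

/-- (RK33) -/
theorem rK33Stmt : RK33Stmt := by
  classical
  intro a
  obtain ⟨C, hC, hm, -⟩ := main
  refine ⟨C, fun V _ G hG hbad v => ?_⟩
  have hK : IsMinor K33 G := by
    by_contra hno
    exact hbad (hm V G hG hno).2
  obtain ⟨μ, h1, h2, h3⟩ := hK
  have hne : ∀ c, (μ c).Nonempty := fun c => by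
    obtain ⟨⟨x, hx⟩⟩ := (h1 c).nonempty
    exact ⟨x, hx⟩
  obtain ⟨P, hvP, hPc, b, hbP, hbB, hb⟩ := exists_leg hG v (B := ⋃ c, μ c)
    ((hne a).mono (Set.subset_iUnion μ a))
  obtain ⟨x₀, hx₀⟩ := Set.mem_iUnion.1 hbB
  obtain ⟨π, hπ, hπ'⟩ := exists_pi' a x₀
  obtain ⟨ν, hν1, hν2⟩ : ∃ ν : Fin 3 ⊕ Fin 3 → Set V, ν x₀ = μ x₀ ∪ P ∧
      ∀ c, c ≠ x₀ → ν c = μ c :=
    ⟨Function.update μ x₀ (μ x₀ ∪ P), Function.update_self _ _ _,
      fun c hc => Function.update_of_ne hc _ _⟩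
  have hPd : ∀ c, c ≠ x₀ → Disjoint P (μ c) := by
    intro c hc
    rw [Set.disjoint_left]
    intro x hx hx'
    have := hb x hx (Set.mem_iUnion.2 ⟨c, hx'⟩)
    subst this
    exact Set.disjoint_left.1 (h2 c x₀ hc) hx' hx₀
  have hsub : ∀ c, μ c ⊆ ν c := by
    intro c
    by_cases hc : c = x₀
    · rw [hc, hν1]
      exact Set.subset_union_left
    · rw [hν2 c hc]
  have hconn : ∀ c, (G.induce (ν c)).Connected := by
    intro c
    by_cases hc : c = x₀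
    · rw [hc, hν1]
      exact H578.conn_union' (h1 _) hPc ⟨b, hx₀, hbP⟩
    · rw [hν2 c hc]
      exact h1 c
  have hdis : ∀ c d, c ≠ d → Disjoint (ν c) (ν d) := by
    intro c d hcd
    by_cases hc : c = x₀
    · subst hc
      rw [hν1, hν2 d (Ne.symm hcd)]
      exact Set.disjoint_union_left.2 ⟨h2 _ _ hcd, hPd d (Ne.symm hcd)⟩
    · rw [hν2 c hc]
      by_cases hd : d = x₀
      · subst hd
        rw [hν1]
        exact Set.disjoint_union_right.2 ⟨h2 _ _ hcd, (hPd c hcd).symm⟩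
      · rw [hν2 d hd]
        exact h2 _ _ hcd
  refine ⟨fun c => ν (π c), fun c => hconn _, fun c d hcd => hdis _ _ (π.injective.ne hcd),
    fun c d hcd => ?_, ?_⟩
  · obtain ⟨x, hx, y, hy, hxy⟩ := h3 _ _ (hπ' c d hcd)
    exact ⟨x, hsub _ hx, y, hsub _ hy, hxy⟩
  · show v ∈ ν (π a)
    rw [hπ, hν1]
    exact Or.inr hvP

/-- (RCAP) -/
theorem rCapStmt : RCapStmt := by
  classical
  intro r hr
  obtain ⟨R, hR, hR'⟩ := H447.hubStmt 2 r hr
  obtain ⟨K, hK0, hK⟩ := grid_free R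
  refine ⟨K, fun V _ G hG hbad v => ?_⟩
  have hm : IsMinor (K33 ⊕g hub 2 r) G := by
    by_contra hno
    exact hbad (hK V G hG fun h =>
      hno (minor_trans (H578.sumMonoStmt _ _ _ K33 _ _ hR') h)).2
  obtain ⟨μ, h1, h2, h3⟩ := hm
  have hne : ∀ c, (μ c).Nonempty := fun c => by
    obtain ⟨⟨x, hx⟩⟩ := (h1 c).nonempty
    exact ⟨x, hx⟩
  obtain ⟨P, hvP, hPc, b, hbP, hbB, hb⟩ := exists_leg hG v (B := ⋃ o, μ (Sum.inr o))
    ((hne (Sum.inr none)).mono (Set.subset_iUnion (fun o => μ (Sum.inr o)) none))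
  obtain ⟨o, ho⟩ := Set.mem_iUnion.1 hbB
  obtain ⟨c, hc⟩ : ∃ c : Fin 2, b ∈ H578.QQ μ c := by
    rcases o with _ | ⟨d, z⟩
    · exact ⟨0, Or.inl ho⟩
    · exact ⟨d, Or.inr (Set.mem_iUnion.2 ⟨z, ho⟩)⟩
  obtain ⟨c', hc'⟩ : ∃ c' : Fin 2, c' ≠ c := ⟨c + 1, by fin_cases c <;> decide⟩
  have hQc := H578.QQ_connected hr h1 h3 c
  have hQd : ∀ z, Disjoint (H578.QQ μ c) (μ (Sum.inr (some (c', z)))) := by
    intro z
    refine Set.disjoint_union_left.2 ⟨h2 _ _ (by simp), ?_⟩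
    rw [Set.disjoint_iUnion_left]
    intro w
    refine h2 _ _ fun e => hc' ?_
    have e1 := Option.some.inj (Sum.inr.inj e)
    exact (congrArg Prod.fst e1).symm
  have hPd : ∀ z, Disjoint P (μ (Sum.inr (some (c', z)))) := by
    intro z
    rw [Set.disjoint_left]
    intro x hx hx'
    have := hb x hx (Set.mem_iUnion.2 ⟨some (c', z), hx'⟩)
    subst this
    exact Set.disjoint_left.1 (hQd z) hc hx'
  have hg : ∀ z w, (grid r).Adj z w →
      (K33 ⊕g hub 2 r).Adj (Sum.inr (some (c', z))) (Sum.inr (some (c', w))) := by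
    intro z w hzw
    show (hub 2 r).Adj (some (c', z)) (some (c', w))
    show ((⊥ : SimpleGraph (Fin 2)) □ grid r).Adj (c', z) (c', w)
    rw [boxProd_adj]
    exact Or.inr ⟨hzw, rfl⟩
  have hbd : ∀ z ∈ bd r, (K33 ⊕g hub 2 r).Adj (Sum.inr none) (Sum.inr (some (c', z))) :=
    fun z hz => hz
  refine ⟨fun o => match o with
    | none => H578.QQ μ c ∪ P
    | some z => μ (Sum.inr (some (c', z))), ?_, ?_, ?_, Or.inr hvP⟩
  · rintro (_ | z)
    · exact H578.conn_union' hQc hPc ⟨b, hc, hbP⟩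
    · exact h1 _
  · rintro (_ | z) (_ | w) hne'
    · exact absurd rfl hne'
    · exact Set.disjoint_union_left.2 ⟨hQd w, hPd w⟩
    · exact (Set.disjoint_union_left.2 ⟨hQd z, hPd z⟩).symm
    · refine h2 _ _ fun e => hne' ?_
      have e1 := Option.some.inj (Sum.inr.inj e)
      have e2 : z = w := congrArg Prod.snd e1
      rw [e2]
  · rintro (_ | z) (_ | w) h
    · exact absurd h (SimpleGraph.irrefl _)
    · have hw : w ∈ bd r := h
      obtain ⟨x, hx, y, hy, hxy⟩ := h3 _ _ (hbd w hw)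
      exact ⟨x, Or.inl (Or.inl hx), y, hy, hxy⟩
    · have hz : z ∈ bd r := h
      obtain ⟨x, hx, y, hy, hxy⟩ := h3 _ _ (hbd z hz)
      exact ⟨y, hy, x, Or.inl (Or.inl hx), hxy.symm⟩
    · obtain ⟨x, hx, y, hy, hxy⟩ := h3 _ _ (hg z w h)
      exact ⟨x, hx, y, hy, hxy⟩

end Vale.Agent.P235.H12
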