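import Vale.Agent.P235.H12.Geo
import Vale.Agent.P235.H578.LK

/-!
P235 (helper12).  (STAR): disjoint bad sets in a connected graph can be hung on one connected set.
-/

set_option autoImplicit false

namespace Vale.Agent.P235.H12

open SimpleGraph hiding Free
open Vale.Agent.P235 Vale.Agent.P235.H134 Vale.Agent.P235.H606

/-- partial stars -/
structure St {V ι : Type} (G : SimpleGraph V) (A : ι → Set V) (c : ℝ) (I : Set ι) (Z : Set V)
    (D : ι → Set V) : Prop where
  conn : (G.induce Z).Connected
  sub : ∀ i ∈ I, D i ⊆ A i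
  bad : ∀ i ∈ I, Bad G c (D i)
  off : ∀ i ∈ I, Disjoint Z (D i)
  adj : ∀ i ∈ I, ∃ z ∈ Z, ∃ x ∈ D i, G.Adj z x
  out : ∀ i, i ∉ I → Disjoint Z (A i)

theorem conn_nonempty {V : Type} {G : SimpleGraph V} {S : Set V} (h : (G.induce S).Connected) :
    S.Nonempty := by
  obtain ⟨⟨x, hx⟩⟩ := h.nonempty
  exact ⟨x, hx⟩

theorem st_step {V ι : Type} [Finite V] {G : SimpleGraph V} (hG : G.Connected) {A : ι → Set V}
    {c c' : ℝ} (hc : 0 < c) (hcc : 1 + 2 * (96 * c + 112) ≤ c') (hA : ∀ i, Bad G c' (A i))
    (hdis : ∀ i j, i ≠ j → Disjoint (A i) (A j)) {I : Set ι} {Z : Set V} {D : ι → Set V}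
    (h : St G A (1 + 2 * (96 * c + 112)) I Z D) {l₀ : ι} (hl₀ : l₀ ∉ I) :
    ∃ (l : ι) (Z' : Set V) (D' : ι → Set V), l ∉ I ∧ St G A c (insert l I) Z' D' := by
  classical
  have hcm : c ≤ 1 + 2 * (96 * c + 112) := by linarith
  obtain ⟨R, hR⟩ : ∃ R : Set V, R = ⋃ i ∈ {i | i ∉ I}, A i := ⟨_, rfl⟩
  obtain ⟨U, hU⟩ : ∃ U : Set V, U = Z ∪ ⋃ i ∈ I, D i := ⟨_, rfl⟩
  have hRs : ∀ i, i ∉ I → A i ⊆ R := by
    intro i hi x hx
    rw [hR]
    exact Set.mem_iUnion₂.2 ⟨i, hi, hx⟩
  have hUs : ∀ i ∈ I, D i ⊆ U := by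
    intro i hi x hx
    rw [hU]
    exact Or.inr (Set.mem_iUnion₂.2 ⟨i, hi, hx⟩)
  have hZU : Z ⊆ U := by rw [hU]; exact Set.subset_union_left
  have hRU : Disjoint R U := by
    rw [Set.disjoint_left]
    intro x hx hx'
    rw [hR] at hx
    rw [hU] at hx'
    obtain ⟨i, hi, hxi⟩ := Set.mem_iUnion₂.1 hx
    rcases hx' with hx' | hx'
    · exact Set.disjoint_left.1 (h.out i hi) hx' hxi
    · obtain ⟨j, hj, hxj⟩ := Set.mem_iUnion₂.1 hx'
      exact Set.disjoint_left.1 (hdis i j fun e => hi (e ▸ hj)) hxi (h.sub j hj hxj)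
  obtain ⟨a, haR, P, hPR, ⟨b, hbP, hbU, hb⟩, hPc, x, hxP, hax⟩ :=
    H578.exists_link hG ((conn_nonempty (hA l₀).1).mono (hRs l₀ hl₀))
      ((conn_nonempty h.conn).mono hZU) hRU
  rw [hR] at haR
  obtain ⟨l, hl, hal⟩ := Set.mem_iUnion₂.1 haR
  have hl' : l ∉ I := hl
  have hPA : ∀ i, i ∉ I → Disjoint P (A i) := fun i hi => hPR.mono_right (hRs i hi)
  rw [hU] at hbU
  rcases hbU with hbZ | hbD
  · -- `b ∈ Z`
    refine ⟨l, Z ∪ P, Function.update D l (A l), hl', ?_, ?_, ?_, ?_, ?_, ?_⟩
    · exact H578.conn_union' h.conn hPc ⟨b, hbZ, hbP⟩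
    · intro i hi
      by_cases hil : i = l
      · subst hil
        rw [Function.update_self]
      · rw [Function.update_of_ne hil]
        exact h.sub i (hi.resolve_left hil)
    · intro i hi
      by_cases hil : i = l
      · subst hil
        rw [Function.update_self]
        exact bad_mono (hcm.trans hcc) (hA i)
      · rw [Function.update_of_ne hil]
        exact bad_mono hcm (h.bad i (hi.resolve_left hil))
    · intro i hi
      by_cases hil : i = l
      · subst hil
        rw [Function.update_self]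
        exact Set.disjoint_union_left.2 ⟨h.out i hl', hPA i hl'⟩
      · rw [Function.update_of_ne hil]
        have hiI := hi.resolve_left hil
        refine Set.disjoint_union_left.2 ⟨h.off i hiI, ?_⟩
        rw [Set.disjoint_left]
        intro y hy hy'
        have := hb y hy (hUs i hiI hy')
        subst this
        exact Set.disjoint_left.1 (h.off i hiI) hbZ hy'
    · intro i hi
      by_cases hil : i = l
      · subst hil
        rw [Function.update_self]
        exact ⟨x, Or.inr hxP, a, hal, hax.symm⟩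
      · rw [Function.update_of_ne hil]
        obtain ⟨z, hz, y, hy, hzy⟩ := h.adj i (hi.resolve_left hil)
        exact ⟨z, Or.inl hz, y, hy, hzy⟩
    · intro i hi
      have hiI : i ∉ I := fun h' => hi (Or.inr h')
      exact Set.disjoint_union_left.2 ⟨h.out i hiI, hPA i hiI⟩
  · -- `b ∈ D j`
    obtain ⟨j, hj, hbj⟩ := Set.mem_iUnion₂.1 hbD
    have hlj : j ≠ l := fun e => hl' (e ▸ hj)
    obtain ⟨z, hz, y, hy, hzy⟩ := h.adj j hj
    obtain ⟨P₂, D₂, g1, g2, g3, g4, g5, g6, g7, z₂, hz₂, x₂, hx₂, hzx₂⟩ :=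
      geo hc hy hbj (h.bad j hj)
    have hPj : ∀ i, i ∈ I → i ≠ j → Disjoint P (D i) := by
      intro i hiI hij
      rw [Set.disjoint_left]
      intro w hw hw'
      have := hb w hw (hUs i hiI hw')
      subst this
      exact Set.disjoint_left.1 (hdis i j hij) (h.sub i hiI hw') (h.sub j hj hbj)
    have hPD₂ : Disjoint P D₂ := by
      rw [Set.disjoint_left]
      intro w hw hw'
      have := hb w hw (hUs j hj (g2 hw'))
      subst this
      exact Set.disjoint_left.1 g3 g5 hw'
    have hP₂A : ∀ i, i ≠ j → Disjoint P₂ (A i) := fun i hij =>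
      (hdis j i (Ne.symm hij)).mono_left (g1.trans (h.sub j hj))
    refine ⟨l, Z ∪ P₂ ∪ P, Function.update (Function.update D j D₂) l (A l), hl',
      ?_, ?_, ?_, ?_, ?_, ?_⟩
    · exact H578.conn_union' (H578.conn_union h.conn g6 ⟨z, hz, y, g4, hzy⟩) hPc
        ⟨b, Or.inr g5, hbP⟩
    · intro i hi
      by_cases hil : i = l
      · subst hil
        rw [Function.update_self]
      · rw [Function.update_of_ne hil]
        by_cases hij : i = j
        · subst hij
          rw [Function.update_self]
          exact g2.trans (h.sub i hj)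
        · rw [Function.update_of_ne hij]
          exact h.sub i (hi.resolve_left hil)
    · intro i hi
      by_cases hil : i = l
      · subst hil
        rw [Function.update_self]
        exact bad_mono (hcm.trans hcc) (hA i)
      · rw [Function.update_of_ne hil]
        by_cases hij : i = j
        · subst hij
          rw [Function.update_self]
          exact g7
        · rw [Function.update_of_ne hij]
          exact bad_mono hcm (h.bad i (hi.resolve_left hil))
    · intro i hi
      by_cases hil : i = l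
      · subst hil
        rw [Function.update_self]
        exact Set.disjoint_union_left.2 ⟨Set.disjoint_union_left.2
          ⟨h.out i hl', hP₂A i (Ne.symm hlj)⟩, hPA i hl'⟩
      · rw [Function.update_of_ne hil]
        have hiI := hi.resolve_left hil
        by_cases hij : i = j
        · subst hij
          rw [Function.update_self]
          exact Set.disjoint_union_left.2 ⟨Set.disjoint_union_left.2
            ⟨(h.off i hj).mono_right g2, g3⟩, hPD₂⟩
        · rw [Function.update_of_ne hij]
          exact Set.disjoint_union_left.2 ⟨Set.disjoint_union_left.2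
            ⟨h.off i hiI, (hP₂A i hij).mono_right (h.sub i hiI)⟩, hPj i hiI hij⟩
    · intro i hi
      by_cases hil : i = l
      · subst hil
        rw [Function.update_self]
        exact ⟨x, Or.inr hxP, a, hal, hax.symm⟩
      · rw [Function.update_of_ne hil]
        by_cases hij : i = j
        · subst hij
          rw [Function.update_self]
          exact ⟨z₂, Or.inl (Or.inr hz₂), x₂, hx₂, hzx₂⟩
        · rw [Function.update_of_ne hij]
          obtain ⟨z', hz', y', hy', h'⟩ := h.adj i (hi.resolve_left hil)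
          exact ⟨z', Or.inl (Or.inl hz'), y', hy', h'⟩
    · intro i hi
      have hiI : i ∉ I := fun h' => hi (Or.inr h')
      exact Set.disjoint_union_left.2 ⟨Set.disjoint_union_left.2
        ⟨h.out i hiI, hP₂A i fun e => hiI (e ▸ hj)⟩, hPA i hiI⟩

/-- levels -/
noncomputable def lev (C : ℝ) : ℕ → ℝ
  | 0 => max C 1
  | n + 1 => 1 + 2 * (96 * lev C n + 112)

theorem lev_ge (C : ℝ) (n : ℕ) : 1 ≤ lev C n := by
  induction n with
  | zero => exact le_max_right _ _
  | succ n ih =>
    show 1 ≤ 1 + 2 * (96 * lev C n + 112)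
    linarith

theorem lev_mono (C : ℝ) : Monotone (lev C) := by
  refine monotone_nat_of_le_succ fun n => ?_
  have := lev_ge C n
  show lev C n ≤ 1 + 2 * (96 * lev C n + 112)
  linarith

theorem le_lev (C : ℝ) (n : ℕ) : C ≤ lev C n := (le_max_left C 1).trans (lev_mono C n.zero_le)

/-- (STAR) without an excluded minor -/
theorem star_of {V : Type} [Finite V] {G : SimpleGraph V} (hG : G.Connected) {k : ℕ} {C : ℝ}
    (A : Fin (k + 1) → Set V) (hA : ∀ i, Bad G (lev C (k + 1)) (A i))
    (hdis : ∀ i j, i ≠ j → Disjoint (A i) (A j)) :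
    ∃ (Z : Set V) (D : Fin (k + 1) → Set V), Star G C (k + 1) Z D := by
  classical
  have key : ∀ n m : ℕ, n + 1 + m = k + 1 → ∃ (I : Set (Fin (k + 1))) (Z : Set V)
      (D : Fin (k + 1) → Set V), I.ncard = n + 1 ∧ St G A (lev C m) I Z D := by
    intro n
    induction n with
    | zero =>
      intro m hm
      obtain rfl : m = k := by omega
      obtain ⟨u, hu⟩ := conn_nonempty (hA 0).1
      obtain ⟨P, D, g1, g2, g3, g4, g5, g6, g7, g8⟩ :=
        geo (Q := lev C m) (by have := lev_ge C m; linarith) hu hu (hA 0)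
      refine ⟨{0}, P, fun _ => D, by simp, g6, ?_, ?_, ?_, ?_, ?_⟩
      · rintro i rfl
        exact g2
      · rintro i rfl
        exact g7
      · rintro i rfl
        exact g3
      · rintro i rfl
        exact g8
      · intro i hi
        exact (hdis 0 i fun e => hi e.symm).mono_left g1
    | succ n ih =>
      intro m hm
      obtain ⟨I, Z, D, hI, hSt⟩ := ih (m + 1) (by omega)
      obtain ⟨l₀, hl₀⟩ : ∃ l₀, l₀ ∉ I := by
        by_contra hcon
        push Not at hcon
        have hu : I = Set.univ := Set.eq_univ_of_forall hcon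
        rw [hu, Set.ncard_univ, Nat.card_fin] at hI
        omega
      obtain ⟨l, Z', D', hl, hSt'⟩ := st_step hG (c := lev C m) (c' := lev C (k + 1))
        (by have := lev_ge C m; linarith) (lev_mono C (by omega : m + 1 ≤ k + 1)) hA hdis hSt hl₀
      refine ⟨insert l I, Z', D', ?_, hSt'⟩
      rw [Set.ncard_insert_of_notMem hl (Set.toFinite I), hI]
  obtain ⟨I, Z, D, hI, h⟩ := key k 0 (by omega)
  have hu : ∀ i, i ∈ I := by
    intro i
    have : I = Set.univ := by
      refine Set.eq_of_subset_of_ncard_le (Set.subset_univ I) ?_ (Set.toFinite _)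
      rw [Set.ncard_univ, Nat.card_fin, hI]
    rw [this]
    trivial
  exact ⟨Z, D, h.conn, fun i => bad_mono (le_lev C 0) (h.bad i (hu i)),
    fun i j hij => (hdis i j hij).mono (h.sub i (hu i)) (h.sub j (hu j)), fun i => h.off i (hu i),
    fun i => h.adj i (hu i)⟩

/-- (STAR), the literal -/
theorem starStmt : StarStmt := fun _ k C => ⟨lev C (k + 1), fun _ _ _ hG _ ⟨A, hA, hdis⟩ =>
  star_of hG A hA hdis⟩

end Vale.Agent.P235.H12
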