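import Vale.Agent.P235.H12.Plug
import Vale.Agent.P235.H12.Roots
import Vale.Agent.P235.H12.Fin
import Vale.Agent.P235.H236.Hung
import Vale.Agent.P235.H332.Join

/-!
P235 (helper12).  The conjecture for the connected graphs without a minor `H`, for every `H` all of
whose components are planar or minors of a tree with copies of `K_{3,3}` and of capped grids hung
at its vertices.
-/

set_option autoImplicit false

namespace Vale.Agent.P235.H12

open SimpleGraph hiding Free
open Vale.Agent.P235 Vale.Agent.P235.H134 Vale.Agent.P235.H606 Vale.Agent.P235.H56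
open Vale.Agent.P235.H141
open Vale.Agent.P235.H341W (capG)

/-- every component of `H` is planar or a minor of a rooted graph of the class `Hung` -/
def HangComps {W : Type} (H : SimpleGraph W) : Prop :=
  ∀ c : H.ConnectedComponent, Planar (H.induce c.supp) ∨
    ∃ (X : Type) (T : SimpleGraph X) (a : X), Hung X T a ∧ IsMinor (H.induce c.supp) T

theorem joinStmt : JoinStmt := H332.join_of allStar

/-- a rooted graph of the class `Hung` is a rooted excluded minor -/
theorem rfree_hung {X : Type} {T : SimpleGraph X} {a : X} (h : Hung X T a) : RFree T a :=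
  H236.rfree_of_hung joinStmt rK33Stmt rCapStmt h

theorem free_hang {W : Type} [Finite W] (H : SimpleGraph W) (h : HangComps H) :
    ∃ K : ℝ, 0 ≤ K ∧ Free H K := by
  obtain ⟨C, hC⟩ : ∃ C : ℝ, Free H C := by
    refine iter' W H fun c => ?_
    rcases h c with hp | ⟨X, T, a, hT, hm⟩
    · exact excludedPlanar _ _ hp
    · exact H236.free_of_rfree (rfree_hung hT) hm
  exact ⟨max C 0, le_max_right _ _, free_mono (le_max_left _ _) hC⟩

/-- **The hand-in, with trees.** -/
theorem main4 : ∃ C : ℝ, 1 ≤ C ∧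
    (∀ (V : Type) [Finite V] (G : SimpleGraph V), G.Connected → ¬ IsMinor K33 G →
      EdgeIso G C ∧ DistortionLE G C) ∧
    (∀ (t : ℕ) (V : Type) [Finite V] (G : SimpleGraph V), G.Connected →
      (∃ S : Set V, S.ncard ≤ t ∧ ∀ u ∉ S, ¬ IsMinor K33 (G.induce (compSet G S u))) →
        DistortionLE G (C * Real.log (t + 2))) ∧
    (∀ (w t : ℕ) (V : Type) [Finite V] (G : SimpleGraph V), G.Connected →
      (∀ (W : Type) [Finite W] (H : SimpleGraph W), H.Connected → Conn3 H → IsMinor H G →
        ST.H626.PlanePiece w t W H) →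
        EdgeIso G (C * (w + Real.log (t + 2))) ∧ DistortionLE G (C * (w + Real.log (t + 2)))) ∧
    (∀ k w t : ℕ, ∃ K : ℝ, ∀ (V : Type) [Finite V] (G : SimpleGraph V), G.Connected →
      (∀ (W : Type) [Finite W] (H : SimpleGraph W), H.Connected → Conn3 H → IsMinor H G →
        ST.H945.PlaneTw k w t W H) → EdgeIso G K ∧ DistortionLE G K) ∧
    (∀ (W : Type) [Finite W] (H : SimpleGraph W), HangComps H →
      ∃ K : ℝ, Free H K ∧
      ∀ (t : ℕ) (V : Type) [Finite V] (G : SimpleGraph V), G.Connected →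
        (∃ S : Set V, S.ncard ≤ t ∧ ∀ u ∉ S, ¬ IsMinor H (G.induce (compSet G S u))) →
          DistortionLE G (C * (K + Real.log (t + 2)))) ∧
    (∀ F : (V : Type) → SimpleGraph V → Prop, MinorClosed F →
      (∃ (W : Type) (_ : Finite W) (H : SimpleGraph W), HangComps H ∧
        ((H.Connected ∧ ¬ F W H) ∨
          ∀ (V : Type) [Finite V] (G : SimpleGraph V), F V G → ¬ IsMinor H G)) →
      ∃ K : ℝ, ∀ (V : Type) [Finite V] (G : SimpleGraph V), G.Connected → F V G →
        DistortionLE G K) ∧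
    (∀ F : (V : Type) → SimpleGraph V → Prop, MinorClosed F →
      (∃ (r : ℕ) (W : Type) (_ : Finite W) (H : SimpleGraph W), 1 ≤ r ∧ H.Connected ∧
        IsMinor H (H578.jj r) ∧ ¬ F W H) →
      ∃ K : ℝ, ∀ (V : Type) [Finite V] (G : SimpleGraph V), G.Connected → F V G →
        EdgeIso G K ∧ DistortionLE G K) ∧
    (∀ (P : Type) [Finite P] (H : SimpleGraph P), Planar H →
      ∃ K : ℝ, ∀ (V : Type) [Finite V] (G : SimpleGraph V), G.Connected →
        ¬ IsMinor (K33 ⊕g H) G → EdgeIso G K ∧ DistortionLE G K) := by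
  obtain ⟨C0, hC0, h1, h2, h3, h4, -, -, h7, h8⟩ := main3
  obtain ⟨A, hA, hA'⟩ := apex_log'
  have hlog : ∀ t : ℕ, (0 : ℝ) ≤ Real.log ((t : ℝ) + 2) := fun t =>
    Real.log_nonneg (by have : (0 : ℝ) ≤ t := Nat.cast_nonneg t; linarith)
  refine ⟨max C0 A, hC0.trans (le_max_left _ _), ?_, ?_, ?_, h4, ?_, ?_, h7, h8⟩
  · intro V _ G hG hK
    have h := h1 V G hG hK
    exact ⟨ST.H626.EdgeIso.mono' h.1 (le_max_left _ _), h.2.mono (le_max_left _ _)⟩
  · intro t V _ G hG hS
    refine (h2 t V G hG hS).mono ?_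
    exact mul_le_mul_of_nonneg_right (le_max_left _ _) (hlog t)
  · intro w t V _ G hG h
    have h' := h3 w t V G hG h
    have hw : (0 : ℝ) ≤ w := Nat.cast_nonneg w
    have h6 : C0 * (w + Real.log ((t : ℝ) + 2)) ≤ max C0 A * (w + Real.log ((t : ℝ) + 2)) :=
      mul_le_mul_of_nonneg_right (le_max_left _ _) (by have := hlog t; linarith)
    exact ⟨ST.H626.EdgeIso.mono' h'.1 h6, h'.2.mono h6⟩
  · intro W _ H hH
    obtain ⟨K, hK0, hK⟩ := free_hang H hH
    refine ⟨K, hK, fun t V _ G hG hS => ?_⟩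
    refine (apex_of hA hK0 (P := fun V G => ¬ IsMinor H G) hA' hK t V G hG hS).mono ?_
    exact mul_le_mul_of_nonneg_right (le_max_right _ _) (by have := hlog t; linarith)
  · rintro F hF ⟨W, hW, H, hH, ⟨hHc, hFH⟩ | hno⟩
    · obtain ⟨K, -, hK⟩ := free_hang H hH
      refine ⟨K, fun V _ G hG hFG => hK V G hG fun h => hFH ?_⟩
      exact minor F hF V W G H hG hHc h hFG
    · obtain ⟨K, -, hK⟩ := free_hang H hH
      exact ⟨K, fun V _ G hG hFG => hK V G hG (hno V G hFG)⟩

end Vale.Agent.P235.H12
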