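import Vale.Agent.P235.H12.Iter
import Vale.Agent.P235.H606.Loc
import Vale.Agent.P235.H786.Ball
import Vale.Agent.P235.H786.Bin
import Vale.Agent.P235.H273.GlueMain

/-!
P235 (helper12 for helper606).  Theorem U, all blocks plugged in.
-/

set_option autoImplicit false

namespace Vale.Agent.P235.H12

open SimpleGraph hiding Free
open Vale.Agent.P235 Vale.Agent.P235.H134 Vale.Agent.P235.H606

/-- (U) disjoint unions of good excluded minors are good excluded minors -/
theorem unionStmt : UnionStmt :=
  unionStmt_of indStmt H786.ballStmt H786.splStmt H786.noKStmt locStmt H273.glueStmt H786.binStmt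

/-- (ITER) a graph all of whose components are good excluded minors is a good excluded minor -/
theorem components {W : Type} [Finite W] (H : SimpleGraph W)
    (h : ∀ a, ∃ C : ℝ, Free (H.induce {b | H.Reachable a b}) C) : ∃ C : ℝ, Free H C :=
  iter unionStmt H h

end Vale.Agent.P235.H12
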